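import Vale.Agent.P174.LO.Closed

/-! P174: planar diagrams with labelled edges, over a group `H` which is obtained from a
coefficient group `Γ` and letters.  helper49.

`cH : Γ →* H` are the coefficients, `X : ι → H` the letters.  An edge which carries the letter `a`
has a label `ε` at its end and a label `ε'` at its start with `ε' * a * ε = a` in `H`.
Every state also carries positions `en` of its darts in a group `U`, along `π : H →* U`. -/

namespace Vale.Agent.P174.H49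

open Vale.Agent.P174.LO

universe u v w z

section basic

variable {Γ : Type u} [Group Γ] {H : Type w} [Group H] {ι : Type v}

/-- a letter as an element of `H` -/
def lH (X : ι → H) (a : ι × Bool) : H := if a.2 then X a.1 else (X a.1)⁻¹

theorem lH_linv (X : ι → H) (a : ι × Bool) : lH X (linv a) = (lH X a)⁻¹ := by
  rcases a with ⟨j, b⟩
  cases b <;> simp [lH, linv]

/-- the value of a token list in `H` -/
def tvH (cH : Γ →* H) (X : ι → H) {D : Type z} (lab : D → ι × Bool) (T : List (D ⊕ Γ)) : H :=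
  (T.map (Sum.elim (fun d => lH X (lab d)) (fun g => cH g))).prod

@[simp] theorem tvH_nil (cH : Γ →* H) (X : ι → H) {D : Type z} (lab : D → ι × Bool) :
    tvH cH X lab ([] : List (D ⊕ Γ)) = 1 := rfl

@[simp] theorem tvH_inl (cH : Γ →* H) (X : ι → H) {D : Type z} (lab : D → ι × Bool) (d : D)
    (T : List (D ⊕ Γ)) : tvH cH X lab (.inl d :: T) = lH X (lab d) * tvH cH X lab T := by
  simp [tvH]

@[simp] theorem tvH_inr (cH : Γ →* H) (X : ι → H) {D : Type z} (lab : D → ι × Bool) (g : Γ)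
    (T : List (D ⊕ Γ)) : tvH cH X lab (.inr g :: T) = cH g * tvH cH X lab T := by
  simp [tvH]

@[simp] theorem tvH_append (cH : Γ →* H) (X : ι → H) {D : Type z} (lab : D → ι × Bool)
    (S T : List (D ⊕ Γ)) :
    tvH cH X lab (S ++ T) = tvH cH X lab S * tvH cH X lab T := by
  simp [tvH]

theorem tvH_map_inr (cH : Γ →* H) (X : ι → H) {D : Type z} (lab : D → ι × Bool) (Gs : List Γ) :
    tvH cH X lab (Gs.map (Sum.inr : Γ → D ⊕ Γ)) = cH Gs.prod := by
  induction Gs with
  | nil => simp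
  | cons g Gs ih => simp [ih]

/-- `g` can be moved through the letter `a` to the left: `a g a⁻¹` is a coefficient. -/
def Mv (cH : Γ →* H) (X : ι → H) (a : ι × Bool) (g : Γ) : Prop :=
  ∃ k : Γ, cH k = lH X a * cH g * (lH X a)⁻¹

/-- The pinching property: a token list with a letter whose value is a coefficient has two
consecutive inverse letters with a product of coefficients between them which can be moved. -/
def Pinch (cH : Γ →* H) (X : ι → H) : Prop :=
  ∀ (D : Type v) (lab : D → ι × Bool) (T : List (D ⊕ Γ)) (g : Γ), tvH cH X lab T = cH g →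
    (∃ d, Sum.inl d ∈ T) →
    ∃ (T₁ : List (D ⊕ Γ)) (d : D) (Gs : List Γ) (d' : D) (T₂ : List (D ⊕ Γ)),
      T = T₁ ++ .inl d :: (Gs.map Sum.inr ++ .inl d' :: T₂) ∧ Mv cH X (lab d) Gs.prod ∧
        lab d' = linv (lab d)

/-- Standing hypotheses on the coefficients and letters. -/
structure Hyp (cH : Γ →* H) (X : ι → H) : Prop where
  inj : Function.Injective cH
  pinch : Pinch cH X
  gen : Subgroup.closure (Set.range cH ∪ Set.range X) = ⊤

/-- segment of the relator -/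
def segH (cH : Γ →* H) (X : ι → H) {ℓ : ℕ} (x : ZMod ℓ → ι × Bool) (c : ZMod ℓ → Γ)
    (i : ZMod ℓ) : ℕ → H
  | 0 => 1
  | k + 1 => lH X (x i) * cH (c i) * segH cH X x c (i + 1) k

/-- paths; `q` are the start positions and `p` the end positions of darts -/
def PthL {D : Type z} (q p : D → Ps Γ) : Ps Γ → List (D ⊕ Γ) → Ps Γ → Prop
  | s, [], e => s = e
  | s, .inr g :: T, e => PthL q p (pm s g) T e
  | s, .inl d :: T, e => q d = s ∧ PthL q p (p d) T e

/-- paths of the positions in `U`; `f` is the map from the coefficients to `U` -/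
def PthU {D : Type z} {U : Type*} [Group U] (f : Γ →* U) (q p : D → U) : U → List (D ⊕ Γ) → Prop
  | _, [] => True
  | s, .inr g :: T => PthU f q p (s * f g) T
  | s, .inl d :: T => q d = s ∧ PthU f q p (p d) T

end basic

section states

variable {Γ : Type u} [Group Γ] {H : Type w} [Group H] {ι : Type v} {ℓ : ℕ} [NeZero ℓ]
variable {U : Type z} [Group U]

/-- the position in `Ps` at which a dart starts -/
def sp (σ : Dt ι ℓ → Dt ι ℓ) (ε : Dt ι ℓ → Γ) (p : Dt ι ℓ → Ps Γ) (d : Dt ι ℓ) : Ps Γ :=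
  pm (p (σ d)) (ε (σ d))

/-- the position in `U` at which a dart starts -/
def su (f : Γ →* U) (σ : Dt ι ℓ → Dt ι ℓ) (ε : Dt ι ℓ → Γ) (en : Dt ι ℓ → U) (d : Dt ι ℓ) : U :=
  en (σ d) * f (ε (σ d))

/-- there is no nonempty set of faces whose sides are glued among themselves -/
def NoClosed (A : Finset Fc) (σ : Dt ι ℓ → Dt ι ℓ) : Prop :=
  ∀ B ⊆ A, B.Nonempty → ∃ a ∈ B, ∃ i, ∀ a' ∈ B, ∀ j, σ (.inl (a, i)) ≠ .inl (a', j)

/-- A state: a planar diagram with faces `A`, outer word `T`, edge involution `σ`, edge labels `ε`,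
positions `p`, base position `b`, vertices `V`, and with positions `en` of darts and `om` of vertices
in the group `U`. -/
structure LSt (cH : Γ →* H) (X : ι → H) (π : H →* U) (x : ZMod ℓ → ι × Bool) (c : ZMod ℓ → Γ)
    (A : Finset Fc) (T : List (Dt ι ℓ ⊕ Γ)) (σ : Dt ι ℓ → Dt ι ℓ) (ε : Dt ι ℓ → Γ)
    (p : Dt ι ℓ → Ps Γ) (b : Ps Γ) (V : Finset ℕ) (en : Dt ι ℓ → U) (om : ℕ → U) : Prop where
  nodup : (drt T).Nodup
  disj : ∀ a ∈ A, ∀ i, Sum.inl (Sum.inl (a, i)) ∉ T
  slive : ∀ d, Live A T d → Live A T (σ d)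
  ssig : ∀ d, Live A T d → σ (σ d) = d
  slab : ∀ d, Live A T d → lab x (σ d) = linv (lab x d)
  elb : ∀ d, Live A T d → cH (ε (σ d)) * lH X (lab x d) * cH (ε d) = lH X (lab x d)
  inner : ∀ a ∈ A, ∀ i, sp σ ε p (.inl (nxt (a, i))) = pm (p (.inl (a, i))) (cor c (a, i))
  path : PthL (sp σ ε p) p b T b
  att : ∀ v ∈ V, At v b ∨ ∃ d, Live A T d ∧ At v (p d)
  vmem : ∀ d, Live A T d → ∀ v, At v (p d) → v ∈ V
  bmem : ∀ v, At v b → v ∈ V
  cnt : ℓ * A.card + (drt T).length + 2 ≤ 2 * V.card + 2 * A.card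
  red : ∀ a ∈ A, ∀ i, ∀ a' ∈ A, σ (.inl (a, i)) = .inl (a', i) → a'.2 = a.2 ∨ ε (.inl (a, i)) ≠ 1
  uedge : ∀ d, Live A T d → en d = su (π.comp cH) σ ε en d * π (lH X (lab x d))
  uinner : ∀ a ∈ A, ∀ i, su (π.comp cH) σ ε en (.inl (nxt (a, i))) =
    en (.inl (a, i)) * π (cH (cor c (a, i)))
  upath : PthU (π.comp cH) (su (π.comp cH) σ ε en) en 1 T
  ubase : ∀ v g, b = some (v, g) → om v * π (cH g) = 1
  upos : ∀ d, Live A T d → ∀ v g, p d = some (v, g) → om v * π (cH g) = en d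
  nk : Function.Injective (π.comp cH) → b ≠ none ∧ ∀ d, Live A T d → p d ≠ none
  jc : Function.Injective (π.comp cH) →
    (NoClosed A σ ∨ ℓ * A.card + (drt T).length + 4 ≤ 2 * V.card + 2 * A.card)

/-- position in `U` of a face -/
def upt (X : ι → H) (π : H →* U) (x : ZMod ℓ → ι × Bool) (en : Dt ι ℓ → U) (a : Fc) : U :=
  if a.2 then en (.inl (a, 0)) * (π (lH X (x 0)))⁻¹ else en (.inl (a, 0))

/-- the class of a set of faces -/
noncomputable def cls (X : ι → H) (π : H →* U) (x : ZMod ℓ → ι × Bool) (en : Dt ι ℓ → U)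
    (A : Finset Fc) : MonoidAlgebra ℤ U :=
  ∑ a ∈ A, MonoidAlgebra.single (upt X π x en a) (if a.2 then (-1 : ℤ) else 1)

/-- A closed reduced map with labelled edges; vertices may have been killed (position `none`). -/
structure LCm (cH : Γ →* H) (X : ι → H) (x : ZMod ℓ → ι × Bool) (c : ZMod ℓ → Γ)
    (A : Finset Fc) (σ : Fc × ZMod ℓ → Fc × ZMod ℓ) (ε : Fc × ZMod ℓ → Γ)
    (p : Fc × ZMod ℓ → Ps Γ) (V : Finset ℕ) : Prop where
  sA : ∀ a ∈ A, ∀ i, (σ (a, i)).1 ∈ A
  ssig : ∀ a ∈ A, ∀ i, σ (σ (a, i)) = (a, i)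
  slab : ∀ a ∈ A, ∀ i, ilab x (σ (a, i)) = linv (ilab x (a, i))
  elb : ∀ a ∈ A, ∀ i, cH (ε (σ (a, i))) * lH X (ilab x (a, i)) * cH (ε (a, i)) =
    lH X (ilab x (a, i))
  inner : ∀ a ∈ A, ∀ i, pm (p (σ (nxt (a, i)))) (ε (σ (nxt (a, i)))) = pm (p (a, i)) (cor c (a, i))
  att : ∀ v ∈ V, ∃ a ∈ A, ∃ i, At v (p (a, i))
  cnt : ℓ * A.card + 2 ≤ 2 * V.card + 2 * A.card
  red : ∀ a ∈ A, ∀ i, (σ (a, i)).2 = i → ε (a, i) ≠ 1

end states

/-- `Cl π w v a`: `v` is a product of conjugates `h w^{±1} h⁻¹`, and `a` is the sum of the `± π h`. -/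
inductive Cl {H : Type w} [Group H] {U : Type z} [Group U] (π : H →* U) (r : H) :
    H → MonoidAlgebra ℤ U → Prop
  | one : Cl π r 1 0
  | pos (h v : H) (a : MonoidAlgebra ℤ U) : Cl π r v a →
      Cl π r (h * r * h⁻¹ * v) (MonoidAlgebra.single (π h) 1 + a)
  | neg (h v : H) (a : MonoidAlgebra ℤ U) : Cl π r v a →
      Cl π r (h * r⁻¹ * h⁻¹ * v) (- MonoidAlgebra.single (π h) 1 + a)

/-- The relator `r` is aspherical relative to the coefficients: the coefficients embed in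
`H / ⟪r⟫`, and every identity among the conjugates of `r` is trivial in `ℤ[H / ⟪r⟫]`. -/
structure Asph {Γ : Type u} [Group Γ] {H : Type w} [Group H] (cH : Γ →* H) (r : H) : Prop where
  inj : ∀ g, cH g ∈ Subgroup.normalClosure {r} → g = 1
  triv : ∀ a : MonoidAlgebra ℤ (H ⧸ Subgroup.normalClosure {r}),
    Cl (QuotientGroup.mk' (Subgroup.normalClosure {r})) r 1 a → a = 0

/-- `b` is independent of the subset `P`: products `b^{±1} q₀ b^{±1} q₁ ⋯ b^{±1} q_{n-1}` with
`q_j` in `P` and `q_j ≠ 1` between opposite signs are nontrivial. -/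
def MalP {Γ : Type u} [Group Γ] (P : Γ → Prop) (b : Γ) : Prop :=
  ∀ (n : ℕ) (s : ℕ → Bool) (q : ℕ → Γ), 0 < n → (∀ j < n, P (q j)) →
    (∀ j, j + 1 < n → s j ≠ s (j + 1) → q j ≠ 1) →
    ((List.range n).map fun j => (if s j then b else b⁻¹) * q j).prod ≠ 1

/-- the shape `x c₀ x⁻¹ c₁ x c₂ x⁻¹ ⋯ x c_{2r}` -/
def xs (r : ℕ) (i : ZMod (2 * r + 1)) : Fin 1 × Bool := (0, decide (i.val % 2 = 0))

end Vale.Agent.P174.H49
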