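import Vale.Agent.P174.H49.W1

/-! P174: from injectivity modulo the normal closure to the statement for all systems. -/

namespace Vale.Agent.P174.H49

open Vale.Agent.P174

universe u

theorem solvable_of_inj {G : Type u} [Group G] {m n : ℕ} {w : Fin m → Words G n}
    (h : ∀ g : G, Monoid.Coprod.inl g ∈ Subgroup.normalClosure (Set.range w) → g = 1) :
    SolvableOver w := by
  refine ⟨Words G n ⧸ Subgroup.normalClosure (Set.range w), inferInstance,
    (QuotientGroup.mk' (Subgroup.normalClosure (Set.range w))).comp Monoid.Coprod.inl,
    fun j => QuotientGroup.mk' (Subgroup.normalClosure (Set.range w))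
      (Monoid.Coprod.inr (FreeGroup.of j)), ?_, ?_⟩
  · rw [injective_iff_map_eq_one]
    intro g hg
    exact h g ((QuotientGroup.eq_one_iff _).1 hg)
  · intro i
    have h1 : Monoid.Coprod.lift
        ((QuotientGroup.mk' (Subgroup.normalClosure (Set.range w))).comp Monoid.Coprod.inl)
        (FreeGroup.lift fun j => QuotientGroup.mk' (Subgroup.normalClosure (Set.range w))
          (Monoid.Coprod.inr (FreeGroup.of j))) =
        QuotientGroup.mk' (Subgroup.normalClosure (Set.range w)) := by
      apply Monoid.Coprod.hom_ext
      · ext g; simp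
      · ext j; simp
    rw [h1]
    exact (QuotientGroup.eq_one_iff _).2 (Subgroup.subset_normalClosure ⟨i, rfl⟩)

/-- It is enough to exclude balanced products of conjugates with a nontrivial coefficient as
value. -/
theorem howieOver_of_balanced {G : Type u} [Group G]
    (h : ∀ (m n : ℕ) (w : Fin m → Words G n), FullRank ℚ w →
      ∀ (g : G) (N : ℕ) (L : List (Words G n × Fin m × Bool)),
        (L.map (fac w)).prod = Monoid.Coprod.inl g → (∀ i b, cntE L i b = N) → g = 1) :
    HowieOver ℚ G := by
  intro m n w hw
  apply solvable_of_inj
  intro g hg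
  obtain ⟨N, L, h1, h2⟩ := exists_balanced w hw hg
  exact h m n w hw g N L h1 h2

end Vale.Agent.P174.H49
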