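import Vale.Agent.P174.Bdl.D

/-! P174, package WORD-W1: from the normal closure to a balanced product of conjugates. -/

namespace Vale.Agent.P174.H49

open Vale.Agent.P174

universe u

section W1

variable {G : Type u} [Group G] {m n : ℕ}

/-- the factor of an entry -/
def fac (w : Fin m → Words G n) (t : Words G n × Fin m × Bool) : Words G n :=
  t.1 * (if t.2.2 then w t.2.1 else (w t.2.1)⁻¹) * t.1⁻¹

/-- every element of the normal closure is a product of conjugates -/
theorem exists_fac (w : Fin m → Words G n) {v : Words G n}
    (hv : v ∈ Subgroup.normalClosure (Set.range w)) :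
    ∃ L : List (Words G n × Fin m × Bool), (L.map (fac w)).prod = v := by
  unfold Subgroup.normalClosure at hv
  induction hv using Subgroup.closure_induction'' with
  | one => exact ⟨[], rfl⟩
  | mem y hy =>
    rw [Group.conjugatesOfSet, Set.mem_iUnion₂] at hy
    obtain ⟨a, ⟨i, rfl⟩, hy⟩ := hy
    rw [conjugatesOf, Set.mem_ofPred_eq, isConj_iff] at hy
    obtain ⟨u, rfl⟩ := hy
    exact ⟨[(u, i, true)], by simp [fac]⟩
  | inv_mem y hy =>
    rw [Group.conjugatesOfSet, Set.mem_iUnion₂] at hy
    obtain ⟨a, ⟨i, rfl⟩, hy⟩ := hy
    rw [conjugatesOf, Set.mem_ofPred_eq, isConj_iff] at hy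
    obtain ⟨u, rfl⟩ := hy
    exact ⟨[(u, i, false)], by simp [fac, mul_assoc]⟩
  | mul a b _ _ ha hb =>
    obtain ⟨L, rfl⟩ := ha
    obtain ⟨M, rfl⟩ := hb
    exact ⟨L ++ M, by simp⟩

/-- the number of entries of a type -/
def cntE (L : List (Words G n × Fin m × Bool)) (i : Fin m) (b : Bool) : ℕ :=
  (L.filter fun t => decide (t.2 = (i, b))).length

theorem cntE_append (L M : List (Words G n × Fin m × Bool)) (i : Fin m) (b : Bool) :
    cntE (L ++ M) i b = cntE L i b + cntE M i b := by
  simp [cntE]

theorem cntE_cons (t : Words G n × Fin m × Bool) (L : List (Words G n × Fin m × Bool))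
    (i : Fin m) (b : Bool) : cntE (t :: L) i b = (if t.2 = (i, b) then 1 else 0) + cntE L i b := by
  by_cases h : t.2 = (i, b)
  · simp [cntE, h, add_comm]
  · simp [cntE, h]

/-- the exponent sums of a product of conjugates -/
theorem expSum_prod (w : Fin m → Words G n) (L : List (Words G n × Fin m × Bool)) (j : Fin n) :
    Multiplicative.toAdd (expSum G n (L.map (fac w)).prod) j =
      ∑ i, ((cntE L i true : ℤ) - cntE L i false) * expMatrix w i j := by
  induction L with
  | nil => simp [cntE]
  | cons t L ih =>
    rw [List.map_cons, List.prod_cons, map_mul, toAdd_mul, Pi.add_apply, ih]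
    have h1 : Multiplicative.toAdd (expSum G n (fac w t)) j =
        ∑ i, ((if t.2 = (i, true) then 1 else 0 : ℤ) - (if t.2 = (i, false) then 1 else 0)) *
          expMatrix w i j := by
      obtain ⟨u, i, b⟩ := t
      have h2 : expSum G n (fac w (u, i, b)) =
          if b then expSum G n (w i) else (expSum G n (w i))⁻¹ := by
        cases b <;> simp [fac, mul_comm]
      rw [h2, Finset.sum_eq_single i]
      · cases b <;> simp [expMatrix]
      · intro k _ hk
        simp [hk.symm]
      · simp
    rw [h1, ← Finset.sum_add_distrib]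
    refine Finset.sum_congr rfl fun i _ => ?_
    simp only [cntE_cons]
    push_cast
    split_ifs <;> ring

/-- rows of a matrix of full rank are independent -/
theorem eq_zero_of_fullRank {w : Fin m → Words G n} (hw : FullRank ℚ w) {c : Fin m → ℤ}
    (h : ∀ j, ∑ i, c i * expMatrix w i j = 0) : c = 0 := by
  have h1 : LinearIndependent ℚ ((expMatrix w).map (fun a : ℤ => (a : ℚ))).row := by
    rw [linearIndependent_iff_card_eq_finrank_span, Set.finrank, ← Matrix.rank_eq_finrank_span_row]
    rw [FullRank] at hw
    rw [hw]
    simp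
  rw [Fintype.linearIndependent_iff] at h1
  have h2 := h1 (fun i => (c i : ℚ)) (by
    ext j
    have h3 := congrArg (Int.cast (R := ℚ)) (h j)
    push_cast at h3
    simpa [Finset.sum_apply, Matrix.row] using h3)
  funext i
  have := h2 i
  simpa using this

/-- equal numbers of both signs -/
theorem cntE_eq {w : Fin m → Words G n} (hw : FullRank ℚ w) {g : G}
    {L : List (Words G n × Fin m × Bool)} (hL : (L.map (fac w)).prod = Monoid.Coprod.inl g)
    (i : Fin m) : cntE L i true = cntE L i false := by
  have h1 := eq_zero_of_fullRank hw (c := fun i => (cntE L i true : ℤ) - cntE L i false) (by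
    intro j
    rw [← expSum_prod, hL]
    simp [expSum])
  have h2 := congrFun h1 i
  simp only [Pi.zero_apply] at h2
  omega

/-- adding trivial factors `w_i w_i⁻¹` -/
theorem exists_pad (w : Fin m → Words G n) (N : ℕ) (f : Fin m → ℕ) (hf : ∀ i, f i ≤ N)
    (l : List (Fin m)) (hl : l.Nodup) :
    ∃ M : List (Words G n × Fin m × Bool), (M.map (fac w)).prod = 1 ∧
      ∀ i b, cntE M i b = if i ∈ l then N - f i else 0 := by
  induction l with
  | nil => exact ⟨[], rfl, by simp [cntE]⟩
  | cons k l ih =>
    obtain ⟨M, hM, hc⟩ := ih (List.nodup_cons.1 hl).2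
    have key : ∀ r : ℕ, ∃ R : List (Words G n × Fin m × Bool), (R.map (fac w)).prod = 1 ∧
        ∀ i b, cntE R i b = if i = k then r else 0 := by
      intro r
      induction r with
      | zero => exact ⟨[], rfl, by simp [cntE]⟩
      | succ r ihr =>
        obtain ⟨R, h1, h2⟩ := ihr
        refine ⟨(1, k, true) :: (1, k, false) :: R, ?_, fun i b => ?_⟩
        · simp [fac, h1]
        · rw [cntE_cons, cntE_cons, h2]
          by_cases hik : i = k
          · subst hik
            cases b <;> simp [add_comm]
          · have hki : ¬ k = i := fun h => hik h.symm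
            simp [hik, hki]
    obtain ⟨R, h1, h2⟩ := key (N - f k)
    refine ⟨R ++ M, by simp [h1, hM], fun i b => ?_⟩
    rw [cntE_append, h2, hc]
    by_cases hik : i = k
    · subst hik
      simp [(List.nodup_cons.1 hl).1]
    · simp [hik]

/-- **WORD-W1.**  A coefficient in the normal closure of a nonsingular system is a product of
conjugates in which every relator and every inverse relator occurs exactly `N` times. -/
theorem exists_balanced (w : Fin m → Words G n) (hw : FullRank ℚ w) {g : G}
    (hg : Monoid.Coprod.inl g ∈ Subgroup.normalClosure (Set.range w)) :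
    ∃ (N : ℕ) (L : List (Words G n × Fin m × Bool)),
      (L.map (fac w)).prod = Monoid.Coprod.inl g ∧ ∀ i b, cntE L i b = N := by
  obtain ⟨L, hL⟩ := exists_fac w hg
  have hN : ∀ i, cntE L i true ≤ Finset.univ.sup fun i => cntE L i true := fun i =>
    Finset.le_sup (f := fun i => cntE L i true) (Finset.mem_univ i)
  obtain ⟨M, h1, h2⟩ := exists_pad w (Finset.univ.sup fun i => cntE L i true)
    (fun i => cntE L i true) hN (List.finRange m) (List.nodup_finRange m)
  refine ⟨Finset.univ.sup fun i => cntE L i true, L ++ M, by simp [hL, h1], fun i b => ?_⟩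
  rw [cntE_append, h2, if_pos (List.mem_finRange i)]
  have h3 := hN i
  cases b
  · rw [← cntE_eq hw hL]; omega
  · omega

end W1

end Vale.Agent.P174.H49
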